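import Vale.Agent.P235.H56.Defs2
import Vale.Agent.P235.H141.Mk

/-! `CrossStmt`: crossing neighbours on a cycle give a `K_{3,3}` minor (helper248). -/

namespace Vale.Agent.P235.H248

open SimpleGraph Vale.Agent.P235.H134 Vale.Agent.P235.H56
open Vale.Agent.P235.H341W (capG)

/-- a stretch of a walk is connected -/
theorem arc_conn {W : Type} {H : SimpleGraph W} (g : ℕ → W) (hg : ∀ t, H.Adj (g t) (g (t + 1)))
    {p q : ℕ} (hpq : p < q) : (H.induce (g '' Set.Ico p q)).Connected := by
  have h0 : g p ∈ g '' Set.Ico p q := ⟨p, ⟨le_rfl, hpq⟩, rfl⟩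
  have key : ∀ t, p ≤ t → ∀ ht : g t ∈ g '' Set.Ico p q, t < q →
      (H.induce (g '' Set.Ico p q)).Reachable ⟨g p, h0⟩ ⟨g t, ht⟩ := by
    intro t ht
    induction t, ht using Nat.le_induction with
    | base => intro _ _; exact Reachable.refl _
    | succ t ht ih =>
      intro h1 h2
      have h3 : g t ∈ g '' Set.Ico p q := ⟨t, ⟨ht, by omega⟩, rfl⟩
      refine (ih h3 (by omega)).trans (Adj.reachable ?_)
      exact hg t
  have : Nonempty (g '' Set.Ico p q) := ⟨⟨g p, h0⟩⟩
  refine ⟨?_⟩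
  rintro ⟨_, s, hs, rfl⟩ ⟨_, t, ht, rfl⟩
  exact (key s hs.1 ⟨s, hs, rfl⟩ hs.2).symm.trans (key t ht.1 ⟨t, ht, rfl⟩ ht.2)

theorem crossStmt : CrossStmt := by
  intro V G A B y L hper hinj hadj i j k l hij hjk hkl hli hiA hjB hkA hlB
  set H := capG (capG G A) (insert none (some '' B)) with hH
  let g : ℕ → Option (Option V) := fun t => some (some (y t))
  have hg : ∀ t, H.Adj (g t) (g (t + 1)) := fun t => hadj t
  have hdis : ∀ {p q r s : ℕ}, i ≤ p → q ≤ r → s ≤ i + L →
      Disjoint (g '' Set.Ico p q) (g '' Set.Ico r s) := by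
    intro p q r s h1 h2 h3
    rw [Set.disjoint_left]
    rintro _ ⟨t, ht, rfl⟩ ⟨u, hu, hut⟩
    have h4 : y u = y t := Option.some_injective _ (Option.some_injective _ hut)
    have h5 := hinj u t h4
    have h6 : t < u := lt_of_lt_of_le ht.2 (h2.trans hu.1)
    have h7 : u < t + L := lt_of_lt_of_le hu.2 (h3.trans (by have := ht.1; omega))
    have h8 : L ∣ u - t := (Nat.modEq_iff_dvd' h6.le).1 h5.symm
    have h9 := Nat.le_of_dvd (by omega) h8
    omega
  have hn : ∀ p q, Disjoint ({none} : Set (Option (Option V))) (g '' Set.Ico p q) := by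
    intro p q
    rw [Set.disjoint_singleton_left]
    rintro ⟨t, _, ht⟩
    cases ht
  have hs : ∀ p q, Disjoint ({some none} : Set (Option (Option V))) (g '' Set.Ico p q) := by
    intro p q
    rw [Set.disjoint_singleton_left]
    rintro ⟨t, _, ht⟩
    cases ht
  have hns : Disjoint ({some none} : Set (Option (Option V))) {none} := by
    rw [Set.disjoint_singleton]
    exact fun h => by cases h
  have ha : ∀ {t}, y t ∈ A → H.Adj (some none) (g t) := fun h => h
  have hb : ∀ {t}, y t ∈ B → H.Adj none (g t) := fun {t} h => Or.inr ⟨y t, h, rfl⟩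
  have hab : H.Adj (some none) none := Or.inl rfl
  refine H141.k33_mk ![{some none}, g '' Set.Ico j k, g '' Set.Ico l (i + L)]
    ![{none}, g '' Set.Ico i j, g '' Set.Ico k l] ?_ ?_ ?_ ?_ ?_ ?_
  · intro x
    fin_cases x
    · exact H141.single_conn _
    · exact arc_conn g hg hjk
    · exact arc_conn g hg hli
  · intro x
    fin_cases x
    · exact H141.single_conn _
    · exact arc_conn g hg hij
    · exact arc_conn g hg hkl
  · intro x x' hx
    fin_cases x <;> fin_cases x' <;> first | exact absurd rfl hx | skip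
    · exact hs _ _
    · exact hs _ _
    · exact (hs _ _).symm
    · exact hdis (by omega) (by omega) le_rfl
    · exact (hs _ _).symm
    · exact (hdis (by omega) (by omega) le_rfl).symm
  · intro x x' hx
    fin_cases x <;> fin_cases x' <;> first | exact absurd rfl hx | skip
    · exact hn _ _
    · exact hn _ _
    · exact (hn _ _).symm
    · exact hdis le_rfl (by omega) (by omega)
    · exact (hn _ _).symm
    · exact (hdis le_rfl (by omega) (by omega)).symm
  · intro x x'
    fin_cases x <;> fin_cases x'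
    · exact hns
    · exact hs _ _
    · exact hs _ _
    · exact (hn _ _).symm
    · exact (hdis le_rfl le_rfl (by omega)).symm
    · exact hdis (by omega) le_rfl (by omega)
    · exact (hn _ _).symm
    · exact (hdis le_rfl (by omega) le_rfl).symm
    · exact (hdis (by omega) le_rfl le_rfl).symm
  · intro x x'
    have hL : g (i + L) = g i := congrArg (fun z => some (some z)) (hper i)
    fin_cases x <;> fin_cases x'
    · exact ⟨_, rfl, _, rfl, hab⟩
    · exact ⟨_, rfl, g i, ⟨i, ⟨le_rfl, hij⟩, rfl⟩, ha hiA⟩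
    · exact ⟨_, rfl, g k, ⟨k, ⟨le_rfl, hkl⟩, rfl⟩, ha hkA⟩
    · exact ⟨g j, ⟨j, ⟨le_rfl, hjk⟩, rfl⟩, _, rfl, (hb hjB).symm⟩
    · refine ⟨g j, ⟨j, ⟨le_rfl, hjk⟩, rfl⟩, g (j - 1), ⟨j - 1, ⟨by omega, by omega⟩, rfl⟩, ?_⟩
      have := hg (j - 1)
      rw [Nat.sub_add_cancel (by omega)] at this
      exact this.symm
    · refine ⟨g (k - 1), ⟨k - 1, ⟨by omega, by omega⟩, rfl⟩, g k, ⟨k, ⟨le_rfl, hkl⟩, rfl⟩, ?_⟩
      have := hg (k - 1)
      rw [Nat.sub_add_cancel (by omega)] at this
      exact this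
    · exact ⟨g l, ⟨l, ⟨le_rfl, hli⟩, rfl⟩, _, rfl, (hb hlB).symm⟩
    · refine ⟨g (i + L - 1), ⟨i + L - 1, ⟨by omega, by omega⟩, rfl⟩, g i,
        ⟨i, ⟨le_rfl, hij⟩, rfl⟩, ?_⟩
      have := hg (i + L - 1)
      rw [Nat.sub_add_cancel (by omega), hL] at this
      exact this
    · refine ⟨g l, ⟨l, ⟨le_rfl, hli⟩, rfl⟩, g (l - 1), ⟨l - 1, ⟨by omega, by omega⟩, rfl⟩, ?_⟩
      have := hg (l - 1)
      rw [Nat.sub_add_cancel (by omega)] at this
      exact this.symm

end Vale.Agent.P235.H248
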